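import Vale.Agent.P270F.Mg.Defs
import Vale.Agent.P285S.N4.Defs

/-!
# P270F, block TG: the terminal model of a pair with a torsion adjoint class (definitions, rows)
-/

open scoped Manifold ContDiff Topology
open Set Filter Function
open Vale.Agent.P272.K Vale.Agent.P285.H281.FD Vale.Agent.P281Z Vale.Agent.P280Z
open Vale.Agent.P277.HD (pull)
open Vale.Agent.P285N Vale.Agent.P285W.J Vale.Agent.P285W.Bs
open Vale.Agent.P285S.B2 (Nu Ba MV)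
open Vale.Agent.P285S.Mm (Sp)
open Vale.Agent.P270G (Cw Fb ForP)
open Vale.Agent.P270F.Mg (Ct)

noncomputable section

namespace Vale.Agent.P270F.Tg

/-- a second smooth model `U`, on which the images of the negative components are null -/
def Tout (Z : Mf 4) (Q : Bd Z.X) : Prop :=
  ∃ (U : Mf 4) (QU : Bd U.X) (κ ι : Type) (_ : Fintype κ) (A : Pr 4 κ ι) (m : κ → ℤ) (N : ℕ)
    (θ : A.Z.X → Z.X) (μ : A.Z.X → U.X) (S : Set Z.X) (S' : Set U.X), Modif 4 θ S ∧ Modif 4 μ S' ∧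
    U.Prj ∧ IsLB 4 QU ∧ Tp.Nf U QU ∧ Cw A m N ∧ cls 4 (pull μ QU) = cls 4 (pull θ Q) ∧
    ∀ T : CT, T.OK → ∀ k, m k < 0 → P285S.N4.Nl T U (T.c1 U QU) 2 (μ '' A.G k)

/-- families of surfaces of numerical dimension one give null hypersurfaces -/
def Nc (T : CT) {n : ℕ} (Z : Mf n) (l : T.H Z) : Prop := ∀ (r : ℝ) (a : T.H Z), 0 < r → T.Kc Z a →
  n = 4 → Nu T Z l 2 → Neg n (Tr T Z l) → P285S.Ob.CF T Z (r • l) a 2 1 → MV T Z l 2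

/-- the row `MM2` with one more output -/
def MMP (d : ℕ) (P : ∀ (T : CT) (Z : Mf d), Bd Z.X → Prop) : Prop :=
  ForP d fun T κ _ _ A m N => ∀ (L Λ Q : Bd A.Z.X) (Φ : κ → ℕ),
  Cw A m N → IsLB d L → Tp.Nf A.Z L → (∀ j, m j < 0 → Φ j ≠ 0) → Fb A.Z Λ → IsLB d Q →
  Xc.Rig A (fun j => -(Φ j : ℤ)) Λ Q →
  ∃ (C : Ct A.Z) (h : C.Ok (Sp A Φ)) (δ : ℝ) (D : Bd C.B.Z.X) (s : D.ι → C.B.Z.X → ℂ), 0 < δ ∧
    IsLB d D ∧ IsSec d D s ∧ (∀ y ∉ Sp C.B C.Φ, NZ D s y) ∧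
    T.c1 C.B.Z C.Q = δ • T.pull h.md.hol (T.c1 A.Z L) + T.c1 C.B.Z D ∧ P T C.B.Z C.Q

/-- ROW **TMG** -/
def TMG : Prop := MMP 4 fun _ Z Q => Tout Z Q

/-- ROW **SFC** -/
def SFC : Prop := ∀ T : CT, T.OK → ∀ (U : Mf 4) (L H : Bd U.X) (κ ι : Type) [Fintype κ]
  (A : Pr 4 κ ι) (m : κ → ℤ) (N : ℕ) (μ : A.Z.X → U.X) (S : Set U.X), Ba U L H →
  Nu T U (T.c1 U L) 2 → Neg 4 (Tr T U (T.c1 U L)) → Cw A m N → Modif 4 μ S →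
  (∀ k, m k < 0 → P285S.N4.Nl T U (T.c1 U L) 2 (μ '' A.G k)) →
  P285S.Ob.CF T U (T.c1 U L) (T.c1 U H) 2 1 → MV T U (T.c1 U L) 2

/-- ROW **BIR** (from `SFC`) -/
def BIR : Prop := ∀ T : CT, T.OK → ∀ (Z : Mf 4) (Q : Bd Z.X), Cp Z → IsLB 4 Q → Tout Z Q →
  Nc T Z (T.c1 Z Q)

/-- **MM2N**: the output of the block -/
def MM2N : Prop := ∀ d ≤ 4, MMP d fun T Z Q => Nc T Z (T.c1 Z Q)

theorem mm2n_of (h1 : Mg.MM2) (h2 : TMG) (h3 : BIR) : MM2N := by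
  intro d hd T hT κ ι _ A m N L Λ Q Φ a1 a2 a3 a4 a5 a6 a7
  by_cases e : d = 4
  · subst e
    obtain ⟨C, h, δ, D, s, b1, b2, b3, b4, b5, b6⟩ :=
      h2 T hT κ ι A m N L Λ Q Φ a1 a2 a3 a4 a5 a6 a7
    exact ⟨C, h, δ, D, s, b1, b2, b3, b4, b5, h3 T hT _ _ ⟨h.cw.ok.conn, h.cw.ok.prj⟩ h.lbQ b6⟩
  · obtain ⟨C, h, δ, D, s, b1, b2, b3, b4, b5⟩ :=
      h1 d hd T hT κ ι A m N L Λ Q Φ a1 a2 a3 a4 a5 a6 a7
    exact ⟨C, h, δ, D, s, b1, b2, b3, b4, b5, fun _ _ _ _ k => absurd k e⟩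

end Vale.Agent.P270F.Tg
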