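import Vale.Agent.P270F.Tg.Bir2
import Vale.Agent.P270F.Sf.All

/-!
# P270F, block TG: everything
-/

namespace Vale.Agent.P270F.Tg

theorem mm2c : MM2N := mm2n Sf.sfc

end Vale.Agent.P270F.Tg
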