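import Vale.Agent.P285S.Ob.All
import Vale.Agent.P285S.Bs2.Ends

/-!
# P270F: families of subvarieties on birational models
-/

open scoped Manifold ContDiff Topology
open Set Filter Function
open Vale.Agent.P272.K Vale.Agent.P285.H281.FD Vale.Agent.P281Z Vale.Agent.P280Z
open Vale.Agent.P285W Vale.Agent.P285W.J Vale.Agent.P285W.Bs
open Vale.Agent.P285S
open Vale.Agent.P285S.B2 (Zr Nu MV Ba kah_of zr_of)

noncomputable section

namespace Vale.Agent.P270F.Tg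

/-- the strict transform -/
theorem lft {n d : ℕ} {W Z : Mf n} {V : Mf d} {θ : W.X → Z.X} {S : Set Z.X} (hθ : Modif n θ S)
    (pW : W.Prj) {j : V.X → Z.X} (hj : HolM d n j) (cV : Cp V) (hx : ∃ x, j x ∉ S) :
    ∃ (M : Mf d) (π : M.X → V.X) (e : M.X → W.X), Cp M ∧ Modif d π (j ⁻¹' S) ∧ HolM d n e ∧
      ∀ z, θ (e z) = j (π z) := by
  have := cV.conn
  obtain ⟨M, π, e, fp, pM⟩ := fpm n n d d W Z V θ j S (add_comm _ _) hθ.hol hj hθ.thin.an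
    (fun _ k => hθ.sbm k) pW cV.prj
  have hπ : Modif d π (j ⁻¹' S) := by
    refine ⟨Thin.pre_of_ex hθ.thin.an hj hx, fp.hπ, fun _ => trivial, fp.dense, fun y _ hy => ?_,
      fun z hz => imm_iff_sbm.2 (fp.sbm z hz)⟩
    obtain ⟨x, k⟩ := hθ.ex (y := j y) hy
    obtain ⟨z, k1, k2⟩ := fp.one y x k hy
    exact ⟨z, k1.1, fun z' k' => k2 z' ⟨k', hθ.inj (k ▸ hy) (by rw [fp.comm, k', k])⟩⟩
  exact ⟨M, π, e, ⟨hπ.conn, pM⟩, hπ, fp.he, fp.comm⟩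

variable {T : CT} (hT : T.OK)

include hT

/-- it is enough to test with the classes which come from `Y` -/
theorem zr_imm {n d : ℕ} {V : Mf (d + 1)} {Y : Mf n} {u : V.X → Y.X} (hu : HolM (d + 1) n u)
    (cV : Cp V) (pY : Y.Prj) {z : V.X} (hz : Imm (d + 1) n u z) {x : T.H V} (hx : Mn T V x) {k : ℕ}
    (dx : T.Dg V k x) (hk : k ≤ d + 1) (h : ∀ y, Mn T Y y → T.int V (x * T.pull hu y) = 0) :
    Zr T V x := by
  obtain ⟨-, a, ka, ba⟩ := negl.kah _ Y pY T hT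
  obtain ⟨w, m, kw, -, he⟩ := kod T hT _ V _ cV.conn cV.prj (bf_pull hT hu ba)
    (imm_pos hT hu hz ka)
  have h1 := domp hT (le_of_ef hT m.cast_nonneg he) (kc_nf hT kw) (bf_nf hT (bf_pull hT hu ba))
    (d + 1 - k) hx (by rw [mul_comm, ← map_pow, h _ ((kc_nf hT ka).mn.pow _)])
  simpa using zr_of hT (e := 1) (k := k) (j := d + 1 - k) kw
    (fun y hy => by simpa using mn_int hT hy) hx (by simpa using dx) (by omega)
    (by rwa [one_mul, mul_comm])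

/-- moving null divisors on another model -/
theorem mv_tr {d ν : ℕ} {W Z U : Mf (d + 2)} {θ : W.X → Z.X} {μ : W.X → U.X} {S : Set Z.X}
    {S' : Set U.X} (hθ : Modif (d + 2) θ S) (hμ : Modif (d + 2) μ S') (pW : W.Prj) (pU : U.Prj)
    {l : T.H U} {q : T.H Z} {r : ℝ} (r0 : r ≠ 0) (nl : Nf T U l)
    (e : T.pull hμ.hol l = r • T.pull hθ.hol q) (hν : ν ≤ d + 1) (h : MV T U l ν) :
    MV T Z q ν := fun S₀ h₀ => by
  obtain ⟨S₁, k1, k2, k3⟩ := negl.sat _ U _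
    ((hμ.img_neg rem (hθ.pre_neg (h₀.union hθ.thin.neg))).union hμ.thin.neg)
  obtain ⟨c, V, p, hp, e1, cV, i1, ⟨x, hx⟩, z⟩ := h S₁ k2
  obtain rfl : c = d + 1 := by omega
  obtain ⟨M, π, ε, cM, hπ, hε, cm⟩ := lft hμ pW hp cV ⟨x, fun k => hx (k1 (.inr k))⟩
  have := cV.conn
  have := cM.conn
  obtain ⟨y, hy⟩ := (hπ.pre_neg ((k3 _ V p hp cV.conn ⟨x, hx⟩).union
    ((nim _ _ V U p cV.conn hp).1 i1).neg)).dense.nonempty
  have y1 : p (π y) ∉ S₁ := fun k => hy (.inl k)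
  have y2 : θ (ε y) ∉ S₀ ∪ S := fun k => y1 (k1 (.inl ⟨_, k, cm y⟩))
  have hq := hμ.hol.comp hε
  have i2 : Imm (d + 1) (d + 2) (fun z => μ (ε z)) y := (Imm.comp (hp.at _) (hπ.hol.at _)
    (not_not.1 fun k => hy (.inr k)) (hπ.imm fun k => y1 (k1 (.inr k)))).cng
      (.of_forall fun z => (cm z).symm)
  obtain ⟨c, c1, -⟩ := Ps.fub1 hT cV.conn (kah_of hT cV.prj) hπ.hol
  have n1 := nf_pull hT hq nl
  have z1 := zr_imm hT hq cM pU i2 (n1.mn.pow ν) (dg_pow hT (nf_dg hT n1) ν) hν fun w hw => by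
    rw [← map_pow, ← map_mul, hT.rg.pull_comp hπ.hol hp hq cm, c1, z w hw, mul_zero]
  refine ⟨_, M, _, hθ.hol.comp hε, rfl, cM, ⟨y, .comp (hθ.hol.at _) (hε.at _)
    (hθ.imm fun k => y2 (.inr k)) (.of_comp (hμ.hol.at _) (hε.at _) i2)⟩,
    ⟨y, fun k => y2 (.inl k)⟩, fun w hw => ?_⟩
  have z2 := z1 _ (mn_pull hT (hθ.hol.comp hε) hw)
  rw [hT.rg.pull_comp hε hμ.hol hq fun _ => rfl, e, map_smul,
    ← hT.rg.pull_comp hε hθ.hol (hθ.hol.comp hε) fun _ => rfl, smul_pow, smul_mul_assoc,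
    map_smul] at z2
  rw [map_mul, map_pow]
  exact (smul_eq_zero.1 z2).resolve_left (pow_ne_zero _ r0)

/-- **BIR**: the surfaces of numerical dimension one on another model -/
theorem bir {W Z U : Mf 4} {θ : W.X → Z.X} {μ : W.X → U.X} {S : Set Z.X} {S' : Set U.X}
    (hθ : Modif 4 θ S) (hμ : Modif 4 μ S') (pW : W.Prj) {L H : Bd U.X} {q a : T.H Z} {r : ℝ}
    {ν : ℕ} (hb : Ba U L H) (e : T.pull hμ.hol (T.c1 U L) = r • T.pull hθ.hol q)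
    (hν : Nu T U (T.c1 U L) ν) (n2 : 2 ≤ ν) (n4 : ν < 4) (hN : Neg 4 (Tr T U (T.c1 U L)))
    (hF : Ob.CF T Z q a 2 1) :
    MV T U (T.c1 U L) ν ∨ Ob.CF T U (T.c1 U L) (T.c1 U H) 2 1 := by
  have bz : O.Bz U L H := ⟨hb.conn, hb.lL, hb.lA, hb.pos, hb.bA⟩
  have hl := bz.nef hT
  have ha := bz.kc0 hT
  refine (Ob.caseA hT O.jet O.famg O.jac O.nl bz (Ob.nu_of hT hl ha hν (by omega) n4) hN).elim
    (fun k => (Ob.ca_mv hT hl ha le_rfl k).imp_right And.right) fun ⟨S₀, h₀, st, _⟩ => False.elim ?_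
  obtain ⟨b, V, j, hj, -, -, cV, ⟨B, bi⟩, k1, -, k2, -⟩ := hF _
    ((hθ.img_neg rem (hμ.pre_neg (h₀.union hμ.thin.neg))).union hθ.thin.neg)
  have := cV.conn
  obtain ⟨x, hx⟩ := k1.dense.nonempty
  obtain ⟨M, π, ε, cM, hπ, hε, cm⟩ := lft hθ pW hj cV ⟨x, fun k => hx (.inr k)⟩
  have := cM.conn
  have hq := hμ.hol.comp hε
  obtain ⟨y, hy⟩ := (hπ.pre_neg k1).dense.nonempty
  have y1 : μ (ε y) ∉ S₀ ∪ S' := fun k => hy (.inl ⟨_, k, cm y⟩)
  have t1 := Thin.pre_of_ex hμ.thin.an hq ⟨y, fun k => y1 (.inr k)⟩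
  have key : ∀ z, μ (ε z) ∉ μ '' (θ ⁻¹' (S ∪ B)) ∪ S' → j (π z) ∉ S ∧ j (π z) ∉ B ∧ μ (ε z) ∉ S' :=
    fun z k => ⟨fun c => k (.inl ⟨_, .inl (cm z ▸ c), rfl⟩),
      fun c => k (.inl ⟨_, .inr (cm z ▸ c), rfl⟩), fun c => k (.inr c)⟩
  have b1 : O.Bi fun z => μ (ε z) := by
    refine ⟨μ '' (θ ⁻¹' (S ∪ B)) ∪ S', hq, mem_range_self, ?_, ?_, fun z k => ?_⟩
    · refine dense_closure.1 ((t1.union hπ.thin_pre).2.mono fun z hz =>
        mem_closure_iff_frequently.2 ?_)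
      have o1 := (t1.union hπ.thin_pre).closed.isOpen_compl.mem_nhds hz
      by_contra c
      have c1 := hπ.ev (fun k => hz (.inr k)) ((not_frequently.1 c).and o1)
      obtain ⟨v, v1, v2⟩ := ((mem_closure_iff_frequently.1 (bi.dense (π z))).and_eventually
        c1).exists
      obtain ⟨w, rfl⟩ := hπ.surj v
      obtain ⟨w1, w2⟩ := v2 w rfl
      refine w1 ?_
      rintro (⟨s, s1, s2⟩ | s1)
      · obtain rfl := hμ.inj (fun k => w2 (.inl k)) s2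
        exact (show j (π w) ∈ S ∪ B from cm w ▸ s1).elim (fun k => w2 (.inr k)) v1
      · exact w2 (.inl s1)
    · rintro _ ⟨z, rfl⟩ k
      obtain ⟨a1, a2, a3⟩ := key z k
      exact ⟨z, rfl, fun z' k' => hπ.inj a1 (bi.inj a2 (by rw [← cm, ← cm, hμ.inj a3 k']))⟩
    · obtain ⟨a1, a2, a3⟩ := key z k
      exact .comp (hμ.hol.at _) (hε.at _) (hμ.imm a3) (.of_comp (hθ.hol.at _) (hε.at _)
        ((Imm.comp (hj.at _) (hπ.hol.at _) (bi.imm _ a2) (hπ.imm a1)).cng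
          (.of_forall fun z => (cm z).symm)))
  obtain ⟨c, c1, c2, c3⟩ := st 2 M _ hq cM two_pos (by omega) b1 ⟨y, fun k => y1 (.inl k)⟩
  obtain rfl : c = 2 := by omega
  obtain ⟨s, s1, s2⟩ := Ps.fub1 hT cV.conn (kah_of hT cV.prj) hπ.hol
  have s0 := s2 y (hπ.imm fun k => hy (.inr k))
  have z0 : T.int V (T.pull hj q ^ 2) ≤ 0 := not_lt.1 fun k => k2 ⟨le_rfl, by simpa using k⟩
  rw [Nat.sub_self, pow_zero, mul_one, hT.rg.pull_comp hε hμ.hol hq fun _ => rfl, e, map_smul,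
    ← hT.rg.pull_comp hε hθ.hol (hθ.hol.comp hε) fun _ => rfl,
    hT.rg.pull_comp hπ.hol hj (hθ.hol.comp hε) cm, smul_pow, map_smul, ← map_pow, s1] at c3
  exact c3.not_ge (mul_nonpos_of_nonneg_of_nonpos (sq_nonneg r)
    (mul_nonpos_of_nonneg_of_nonpos s0.le z0))

end Vale.Agent.P270F.Tg
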