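import Vale.Agent.P285S.Tm.Defs
import Vale.Agent.P285S.Mm.Ipm
import Vale.Agent.P277.A.Basic

/-!
# P270F, block TG: a torsion adjoint class descends
-/

open scoped Manifold ContDiff Topology ComplexOrder
open Set Filter
open Vale.Agent.P272.K Vale.Agent.P285.H281.FD Vale.Agent.P281Z
open Vale.Agent.P277 (CSp IsNormal IsLBx)
open Vale.Agent.P277.PH (HolF)
open Vale.Agent.P277Z.Slc (IsDiv lin isLB_can isLB_triv)
open Vale.Agent.P277Z.Val (Lg Res triv)
open Vale.Agent.P277Z.Ex.QcH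

noncomputable section

namespace Vale.Agent.P285S.Tm

theorem lbx_triv (X : CSp) : IsLBx X (triv X.pt) :=
  ⟨fun _ => isOpen_univ, fun _ => ⟨(), trivial⟩, fun _ _ x _ _ => P277.hol_const 1 x,
    fun _ _ _ _ _ => one_ne_zero, fun _ _ _ _ _ _ _ => mul_one _⟩

theorem kmt {V : Lg} {X : CSp} {ψ : V.W → X.pt} {T : Finset (Fin V.r)} (hX : IsNormal 4 X)
    (hR : Res V X ψ T) {χ : V.Fm} (hχ : IsKahler χ) {O : Fin V.r → Bd V.W}
    {σ : ∀ l, (O l).ι → V.W → ℂ} (hO : ∀ l, IsDiv 4 (V.G l) (O l) (σ l)) {N c : ℕ}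
    {m : Fin V.r → ℤ} (hN : 0 < N) (hc : 0 < c)
    (e : c • (N • cls 4 (Bd.can 4 V.W) + ∑ l, m l • cls 4 (O l)) = 0) (klt : ∀ l, m l < N)
    (nn : ∀ l ∉ T, 0 ≤ m l) : Km V N c (fun l => c * m l) X ψ T (triv X.pt) := by
  have lO := fun l => (hO l).lb
  have hK := lb_K V N c
  have l1 := P281Z.lb_lin lO fun l => c * m l
  have hK' := lb_pow (isLB_can (n := 4) (W := V.W)) N
  obtain ⟨u, hu⟩ := (cls_eq (lb_mul hK l1) isLB_triv).1 (by
    rw [cls_mul hK l1, cls_pow (lb_mul hK' (lb_triv V)), cls_mul hK' (lb_triv V),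
      cls_pow isLB_can, cls_lin lO, cls_triv, show cls 4 (triv V.W) = 0 from cls_triv, add_zero,
      ← e, smul_add, Finset.smul_sum]
    simp only [mul_smul, natCast_zsmul])
  let D : P277Z.Ex.Fm V (Fin V.r) := ⟨O, fun l => l, σ, lO, hO⟩
  refine ⟨hX, lbx_triv X, hN, hc, ⟨χ, hχ, fun _ => lb_triv V, fun _ ε hε =>
    ⟨fun _ _ => 0, ⟨fun _ _ _ _ _ => contDiffAt_const, fun _ _ _ _ _ => by simp [triv]⟩,
      fun _ e x he _ => by
        rw [C2.cHess_const, zero_add]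
        exact ((hχ.posDef e x he).smul (Complex.zero_lt_real.2 hε)).posSemidef⟩, hR,
    cmp_of D hR.cont (lbx_triv X) hK
      (fun w _ e y => u (e, w) () y * ∏ l, σ l (w l) y ^ (-(c * m l)))
      (fun y w w' i i' e e' _ a b _ _ g k => ?_) fun y w i e ζ a _ f hζ => ?_⟩, fun l => ?_,
    fun l hl => mul_nonneg (Nat.cast_nonneg _) (nn l hl)⟩
  · have k1 := hu.chg (e', w') (e, w) () () y ⟨k, b⟩ ⟨g, a⟩ trivial trivial
    have k2 : ∏ l, σ l (w' l) y ^ (-(c * m l)) = (∏ l, (O l).g (w' l) (w l) y ^ (-(c * m l))) *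
        ∏ l, σ l (w l) y ^ (-(c * m l)) := mon_chg D b a fun l => -(c * m l)
    have k3 : (∏ l, (O l).g (w' l) (w l) y ^ (c * m l)) *
        ∏ l, (O l).g (w' l) (w l) y ^ (-(c * m l)) = 1 := by
      rw [← Finset.prod_mul_distrib]
      exact Finset.prod_eq_one fun l _ => by
        rw [← zpow_add₀ ((lO l).ne_zero _ _ _ (b l) (a l)), add_neg_cancel, zpow_zero]
    change u (e', w') () y * 1 = _ * (∏ l, (O l).g (w' l) (w l) y ^ (c * m l)) * _ at k1
    show u (e', w') () y * _ = 1 * (u (e, w) () y * _) * _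
    rw [k2, ← mul_one (u (e', w') () y), k1]
    linear_combination (((((Bd.can 4 V.W).pow N).mul (triv V.W)).pow c).g e' e y *
      u (e, w) () y * ∏ l, σ l (w l) y ^ (-(c * m l))) * k3
  · obtain ⟨v, b1, b2, b3⟩ := mon_unit D a hζ fun l => -(c * m l)
    refine ⟨fun x => u (e, w) () x * v x, HolF.mul (hu.hol (e, w) () y ⟨f, a⟩ trivial) b1,
      mul_ne_zero (hu.ne (e, w) () y ⟨f, a⟩ trivial) b2, b3.mono fun x d _ => ?_⟩
    rw [mul_assoc]
    exact congrArg _ d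
  · rw [mul_comm (N : ℤ)]
    exact mul_lt_mul_of_pos_left (klt l) (Nat.cast_pos.2 hc)

end Vale.Agent.P285S.Tm
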