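import Vale.Agent.P285S.Mg.All
import Vale.Agent.P285S.Tm.Zx41

/-!
# P270F, block TG: the program for generalized pairs with its last model
-/

open scoped Manifold ContDiff Topology
open Set Filter Asymptotics
open Vale.Agent.P272.K Vale.Agent.P285.H281.FD Vale.Agent.P281Z Vale.Agent.P285N
open Vale.Agent.P277Z.Slc (IsDiv LEq Snc lin)
open Vale.Agent.P277 (CSp IsNormal IsLBx RelAmple)
open Vale.Agent.P277.HD (pull)
open Vale.Agent.P277Z.Ex (isSec_of_secN secN_of_isSec Fre)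
open Vale.Agent.P277Z.Val (Lg Res IsPM triv)
open Vale.Agent.P277Z.Pj (Stein PIso HolTo)
open Vale.Agent.P285S.Tm (Am Km mf pr)

noncomputable section

namespace Vale.Agent.P285S.Mm.Gp

open _root_.Vale.Agent.P277Z _root_.Vale.Agent.P277Z.Ex in
/-- the last chamber and its model -/
theorem mmx0 (B : B0) (hB : B.Ok) : ∃ (e e' : ℕ × ℕ) (S : Lv B) (F : Fin 2 → Fin S.V.r → ℕ)
    (X : CSp) (ψ : S.V.W → X.pt) (L : Bd X.pt), Lt e e' ∧ S.Ch e e' F ∧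
    Mo S e e' F (supp (Phi e e' F)) X ψ L ∧ S.Out (dt e e') (Phi e e' F) (Psi e e' F) ∧
    (∀ k ∈ S.exc, Phi e e' F k ≠ 0) ∧ (∀ l, Psi e e' F l ≠ 0 → Phi e e' F l ≠ 0) ∧
    ∀ l, Phi e e' F l ≠ 0 → ∀ y ∈ S.V.G l, S.π y ∈ B.F := by
  have hF := fix bsl0 lv0
  have hA := enda lv0
  obtain ⟨ε, hε⟩ := chain B hB
  obtain ⟨J, ⟨P⟩, hJ⟩ := fake bsl0 lv0 (prn bsl0 lv0) moex (kc lv0) moup wall ipm kahx term0 hB hε
  have lt := hε.lt J
  have fx := (hF B hB P.S).1 _ _ _ lt P.ch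
  have hΦ : ∀ l, P.F 1 l ≠ 0 → Phi (ε J) (ε (J + 1)) P.F l ≠ 0 := fun l h =>
    (Nat.sub_pos_of_lt (lt.phi_lt (fx l) h)).ne'
  have c1 : ∀ l, (Phi (ε J) (ε (J + 1)) P.F l : ℤ) = (ε J).2 * P.F 1 l - (ε (J + 1)).2 * P.F 0 l :=
    fun l => by rw [Phi, Nat.cast_sub (lt.phi_le (fx l)), Nat.cast_mul, Nat.cast_mul]
  have c2 : ∀ l, (Psi (ε J) (ε (J + 1)) P.F l : ℤ) = (ε J).1 * P.F 1 l - (ε (J + 1)).1 * P.F 0 l :=
    fun l => by rw [Psi, Nat.cast_sub (fx l), Nat.cast_mul, Nat.cast_mul]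
  have sp : supp (Phi (ε J) (ε (J + 1)) P.F) = supp (P.F 1) := Finset.ext fun l => by
    rw [mem_supp, mem_supp]
    exact ⟨fun hl a => hl (by simp [Phi, a]), hΦ l⟩
  obtain ⟨g0, g1⟩ := (hA B hB P.S).1 _ _ _ lt P.ch
  refine ⟨_, _, P.S, P.F, P.X, P.ψ, P.L, lt, P.ch, sp ▸ P.mo,
    endb bsl0 B hB P.S ε J _ _ _ hε lt.dt_pos fun j hj => ?_,
    fun k hk => hΦ k (mem_supp.1 (P.exc hk)), fun l hl => hΦ l fun a => hl (by simp [Psi, a]),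
    fun l hl y hy => (bsl0 B hB).1 _ lt.y ((P.ch.s1 l).1 (fun a => hl (by simp [Phi, a])) y hy)⟩
  have key : ∀ i ≥ J, (P.S.Gl (ε i) (dt (ε J) (ε (J + 1))) fun l =>
      (ε i).1 * Phi (ε J) (ε (J + 1)) P.F l - (ε i).2 * Psi (ε J) (ε (J + 1)) P.F l) ∧
      P.S.Gl (ε (i + 1)) (dt (ε J) (ε (J + 1))) fun l => (ε (i + 1)).1 *
        Phi (ε J) (ε (J + 1)) P.F l - (ε (i + 1)).2 * Psi (ε J) (ε (J + 1)) P.F l := by
    intro i hi
    induction i, hi using Nat.le_induction with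
    | base =>
      exact ⟨g0.smul _ fun l => by rw [c1, c2, lt.dt_cast]; ring,
        g1.smul _ fun l => by rw [c1, c2, lt.dt_cast]; ring⟩
    | succ i hi ih =>
      refine ⟨ih.2, (hA B hB P.S).2 _ _ _ _ _ _ _ (hε.lt i) (hε.lt (i + 1)) (hε.gn i)
        (hε.gn (i + 1)) (hJ i hi) ih.1 ih.2 fun l => ?_⟩
      rw [(hε.lt i).dt_cast, (hε.lt (i + 1)).dt_cast, ((hε.lt i).tr (hε.lt (i + 1))).dt_cast]
      ring
  exact (key j hj).1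

namespace ZxH

theorem bpf {B : B0} {S : Lv B} {v} (h : ∀ w, Fre 4 (pt _) S.D.N v w) {M : Bd S.V.W}
    (hM : IsLB 4 M) (e : cls 4 M = cls 4 (lin S.D.N v)) : Bpf 4 M :=
  Bpf.iso hM (lb_lin S.D.lb _) ((cls_eq hM (lb_lin S.D.lb _)).1 e) fun w => (h w).imp fun _ k =>
    ⟨isSec_of_secN (P277Z.Ex.sec_mono k.1 fun _ _ => rfl), k.2⟩

open Mm.ZdaH in
theorem am0 {B : B0} (hB : B.Ok) {S : Lv B} {e e' F T X ψ L} (lt : Lt e e') (ch : S.Ch e e' F)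
    (mo : Mo S e e' F T X ψ L) (out : S.Out (dt e e') (Phi e e' F) (Psi e e' F)) :
    ∃ L' Λ, Am (mf S.V) X ψ L L' Λ := by
  have fx := (fix bsl0 lv0 B hB S).1 _ _ _ lt ch
  obtain ⟨Λ, l1, l2, l3⟩ := mo.amp
  obtain ⟨L', k1, k2⟩ := mo.dsc ![e'.1, -e.1]
  have hψ : HolTo 4 X ψ := ⟨mo.res.cont, mo.res.hol⟩
  have eP : dt e e' • S.cl B.g - S.D.dn (Phi e e' F) =
      e.2 • S.M e e' F 1 - e'.2 • S.M e e' F 0 := by
    rw [MoupH.cls S lt fx, Fin.sum_univ_two]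
    simp only [Matrix.cons_val_zero, Matrix.cons_val_one]
    module
  have eQ : ∑ i, ![(e'.1 : ℤ), -e.1] i • S.M e e' F i =
      dt e e' • S.cl B.a + S.D.dn (Psi e e' F) := by
    have := MoexH.cls S lt fx
    rw [Fin.sum_univ_two] at this ⊢
    simp only [Matrix.cons_val_zero, Matrix.cons_val_one]
    linear_combination (exp := 1) this
  rw [eQ] at k2
  have p1 := Mm.ZxH.cls_piso hψ mo.lb (lb_lin S.D.lb _) mo.ds
  have p2 := Mm.ZxH.cls_piso hψ k1 (lb_lin S.D.lb _) k2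
  have p3 := Mm.ZxH.cls_piso hψ l1 (lb_lin S.D.lb _) l3
  refine ⟨L', Λ, mo.lb, k1, l1, l2, ⟨e.2, fun M hM eM => bpf (v := (e.2 + e'.2) • S.M e e' F 0)
    (fun w => (ch.mov.free 0 w).pow (fun a => P277Z.Brg.lbn_of (S.D.lb a) _) _) hM
    (eM.trans ?_)⟩, fun i => ?_⟩
  · rw [p1, p3, ← cl_smul S.D.lb, ← cl_sub S.D.lb, eP, Fin.sum_univ_two]
    congr 2
    module
  · obtain ⟨x, y, a, b, fr⟩ := out.free i
    refine ⟨x, y, a, b, fun M hM eM => bpf fr hM (eM.trans ?_)⟩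
    rw [p1, p2, ← cl_smul S.D.lb, ← cl_smul S.D.lb, ← cl_add S.D.lb]

end ZxH

/-- output data on the manifold of `V` -/
structure Dx {κ ι : Type} (A : Pr 4 κ ι) : Type 1 where
  V : Lg
  P : Bd V.W
  Ω : Chart 4 V.W → P.ι → V.W → ℂ
  m : Fin V.r → ℤ
  π : V.W → A.Z.X
  O : Fin V.r → Bd V.W
  σ : ∀ l, (O l).ι → V.W → ℂ
  δ : ℕ
  Φ : Fin V.r → ℕ
  φ : Fin V.r → ℕ
  Q : Bd V.W
  X : CSp
  ψ : V.W → X.pt
  L : Bd X.pt
  L' : Bd X.pt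
  Λ : Bd X.pt

/-- the data for pairs -/
abbrev Dx.R {κ ι : Type} {A : Pr 4 κ ι} (D : Dx A) (N : ℕ) : Dt A :=
  ⟨Fin D.V.r, D.P.ι, ⟨{ X := D.V.W }, D.V.G, D.P.U, D.P.g, D.Ω⟩, D.m, D.δ * N, D.π, D.O, D.σ, D.δ,
    D.Φ, D.φ, D.Q⟩

/-- `X` is the model which contracts the support of `Φ` -/
structure Dx.Md {κ ι : Type} {A : Pr 4 κ ι} (D : Dx A) : Prop where
  normal : IsNormal 4 D.X
  res : Res D.V D.X D.ψ (supp D.Φ)
  kah : ∃ χ : D.V.Fm, IsKahler χ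
  am : Am (mf D.V) D.X D.ψ D.L D.L' D.Λ
  cl : cls 4 (pull D.ψ D.L) = cls 4 D.Q

open Gp.ZdaH Mm.ZdaH in
theorem zxg0 : ForI 4 fun _ _ _ A m N φ c L Q => (∀ l, IsConnected (A.G l)) →
    ∀ H, IsLB 4 H → Pos 4 H → ∃ (D : Dx A) (Ψ : Fin D.V.r → ℕ), (D.R N).Ok m N φ c L Q ∧
      (D.R N).Zd Q H Ψ ∧ D.Md := by
  have h1 := bok
  have h2 := lv0
  have h3 := kc lv0
  have h4 := kcc
  have h5 := lvp lv0 kahx
  have h6 := pbf lv0 (lvp lv0 kahx)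
  have h7 := mkpr
  intro κ ι _ A m N O σ φ c L Q hI hc H hH hP
  obtain ⟨M₀, lm, nm, cm⟩ := hI.gen
  have e := (Fintype.equivFin κ).symm
  have hs : P277Z.Val.IsSnc 4 fun l => A.G (e l) := fun y =>
    let ⟨t, lab, a, b, c⟩ := P277Z.Cls.isSnc_of hI.ok.snc y
    ⟨t, fun l => lab (e l), a, fun l l' i u v => e.injective (b _ _ i u v),
      c.mono fun _ k l => k (e l)⟩
  obtain ⟨hB, eg, ea, eL⟩ := h1 κ ι A m N O σ φ c L Q _ e hc hs H M₀ hH lm hI hP nm cm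
  set B := toB A e hc hs hI.div hH lm m N c φ
  obtain ⟨e₀, e₁, S, F, X, ψ, LX, lt, ch, mo, out, ex, psi, sup⟩ := mmx0 B hB
  obtain ⟨L', Λ, am⟩ := ZxH.am0 hB lt ch mo out
  have hδ := lt.dt_pos
  have kah := ((h2 B hB).2 S).2.1
  have ds := mo.ds
  have rs := mo.res
  have nm' := mo.normal
  have lx := mo.lb
  clear mo ch
  generalize dt e₀ e₁ = δ at *
  generalize Phi e₀ e₁ F = Φ at *
  generalize Psi e₀ e₁ F = Ψ at *
  obtain ⟨d, kc, le, s, st, hs', hd⟩ := h3 B hB S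
  obtain ⟨prj, hπ, md, cl⟩ := h5 B hB S
  obtain ⟨f, f1, f2, f3⟩ := h6 B hB S
  have kk := h4 B hB S d kc
  have hF : B.F = Sp A φ := Set.ext fun x => ⟨fun ⟨l, a⟩ => ⟨e l, a⟩, fun ⟨l, a⟩ => by
    obtain ⟨k, rfl⟩ := e.surjective l
    exact ⟨k, a⟩⟩
  have cP : cls 4 (lin S.D.N (δ • S.cl B.g - S.D.dn Φ)) =
      δ • hπ.pic (cls 4 (lin B.D.N B.g)) - ∑ l, Φ l • cls 4 (S.O l) := by
    rw [cl_sub S.D.lb, cl_smul S.D.lb, c_cl hπ cl, c_dn hπ cl]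
  have pP : cls 4 (pull S.π Q) = hπ.pic (cls 4 (lin B.D.N B.g)) :=
    (cls_pull hπ hI.lbQ).trans (congrArg hπ.pic eg.symm)
  have k0 : cls 4 (pull S.π A.P) = N • cls 4 (Bd.can 4 S.V.W) + ∑ l, d l • cls 4 (S.O l) := by
    have a1 : cls 4 (pull S.π Q) = cls 4 (pull S.π A.P) + cls 4 (pull S.π M₀) :=
      (cls_pull hπ hI.lbQ).trans (((congrArg _ cm).trans (map_add _ _ _)).trans
        (congrArg₂ (· + ·) (cls_pull hπ hI.ok.lb) (cls_pull hπ lm)).symm)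
    rw [cls_pull hπ (lb_lin B.D.lb _), ← pP, a1, add_right_comm] at kk
    exact add_right_cancel kk
  obtain ⟨P', lP, cP'⟩ : ∃ T, IsLB 4 T ∧ cls 4 T =
      δ • cls 4 (pull S.π A.P) - ∑ l, Φ l • cls 4 (S.O l) :=
    Pic.ind (P := fun a => ∃ T, IsLB 4 T ∧ cls 4 T = a) (fun T h => ⟨T, h, cls_mk h⟩) _
  obtain ⟨Ω, ok⟩ := h7 4 _ S.Z S.V.G S.O S.E.σ P'
    (fun l => δ * d l - Φ l) (δ * N) ((h2 B hB).2 S).1 prj (P277Z.Slc.snc_lg S.V) S.E.div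
    lP (Nat.mul_pos hδ hI.ok.pos) (hI.ok.even.mul_left δ) (fun l => by
      have := mul_le_mul_of_nonneg_left (le l) (Int.natCast_nonneg δ)
      have := Int.natCast_nonneg (Φ l)
      push_cast
      exact (sub_le_self _ ‹_›).trans ‹_›) (by
      rw [cP', k0]
      simp only [sub_smul, mul_smul, natCast_zsmul, Finset.sum_sub_distrib, smul_add,
        Finset.smul_sum, add_sub_assoc])
  have nex : ∀ l, Φ l = 0 → ∃ k, s k = l := fun l hl => by_contra fun a => ex l ((hs' l).2 a) hl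
  have hd' : ∀ k, d (s k) = m (e k) := fun k => (hd k).trans (Int.toNat_of_nonneg (hI.nn _))
  have one : ∀ k, Φ (s k) = 0 → m (e k) = N → δ * d (s k) - Φ (s k) = (δ * N : ℕ) :=
    fun k a b => by rw [a, hd', b]; simp
  have pH : cls 4 (pull S.π H) = hπ.pic (cls 4 (lin B.D.N B.a)) :=
    (cls_pull hπ hH).trans (congrArg hπ.pic ea.symm)
  have pL : cls 4 (pull S.π L) = c • hπ.pic (cls 4 (lin B.D.N B.g)) - ∑ l, f l • cls 4 (S.O l) := by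
    rw [← f1, cls_pull hπ (lb_lin B.D.lb _), ← map_nsmul, ← map_sub, ← cl_smul B.D.lb,
      ← cl_sub B.D.lb]
    exact (cls_pull hπ hI.lb).trans (congrArg hπ.pic eL.symm)
  have up : ∀ l, δ * d l - Φ l = (δ * N : ℕ) → ∃ k, s k = l ∧ m (e k) = N := fun l a => by
    have b := mul_le_mul_of_nonneg_left (le l) (Int.natCast_nonneg δ)
    have b' : ((δ * N : ℕ) : ℤ) = δ * B.N := Nat.cast_mul _ _
    obtain ⟨k, rfl⟩ := nex l (by omega)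
    refine ⟨k, rfl, (hd' k).symm.trans (mul_left_cancel₀ (Nat.cast_ne_zero.2 hδ.ne' : (δ : ℤ) ≠ 0)
      (show δ * d (s k) = δ * B.N by omega))⟩
  refine ⟨⟨S.V, P', Ω, fun l => δ * d l - Φ l, S.π, S.O, S.E.σ, δ, Φ,
    fun l => δ * f l - c * Φ l, lin S.D.N (δ • S.cl B.g - S.D.dn Φ), X, ψ, LX, L', Λ⟩, Ψ,
    ⟨ok, hF ▸ md fun k hk => sup k (ex k hk), S.E.div, hδ, cP', lb_lin S.D.lb _,
    cP.trans (congrArg (fun x => δ • x - _) pP.symm), ?_, fun l hl a => ?_,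
    fun l hl y hy => hF ▸ ?_, fun y k hy => ?_, fun hb l hl => ?_, fun l a y hy => ?_⟩,
    ⟨psi, fun n => ?_, fun i k M t hk hM eM ht a y ha ζ hζ => zd out hk hM ?_ ht ha hζ⟩,
    nm', rs, kah, am, Mm.ZxH.cls_piso ⟨rs.cont, rs.hol⟩ lx (lb_lin S.D.lb _) ds⟩
  · refine (congrArg (c • ·) cP).trans (Eq.trans ?_ (congrArg (fun x => δ • x + _) pL.symm))
    have : ∀ l, (δ * f l - c * Φ l) • cls 4 (S.O l) =
        δ • f l • cls 4 (S.O l) - c • Φ l • cls 4 (S.O l) := fun l => by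
      rw [smul_smul, smul_smul, eq_sub_iff_add_eq, ← add_smul,
        Nat.sub_add_cancel (show c * Φ l ≤ _ from f3 δ Φ Ψ out l)]
    simp only [this, Finset.sum_sub_distrib, ← Finset.smul_sum, smul_sub, smul_comm c δ]
    abel
  · obtain ⟨k, rfl⟩ := nex l a
    refine absurd hl (not_lt.2 ?_)
    have := mul_nonneg (Int.natCast_nonneg δ) (hI.nn (e k))
    simpa only [hd', show Φ (s k) = 0 from a, Nat.cast_zero, sub_zero] using this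
  · exact hl.elim (fun a => sup l a y hy) fun a => f2 l (fun b => a (by simp [b])) y hy
  · obtain ⟨k, rfl⟩ := e.surjective k
    by_cases hx : y ∈ ⋃ l ∈ S.exc, S.V.G l
    · obtain ⟨l, a, b⟩ := mem_iUnion₂.1 hx
      exact ⟨l, b, .inl (ex l a)⟩
    obtain ⟨y', a, b⟩ := (st.img k).ge hy
    exact ⟨s k, S.res.inj y y' hx b ▸ a,
      (em' _).imp_right fun u => ⟨(st.img k).le, one k u⟩⟩
  · refine (em _).imp_left fun u => ?_
    obtain ⟨k, rfl⟩ := nex l u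
    obtain ⟨x, hx⟩ := (B.V.conn k).nonempty
    obtain ⟨z, z1, z2⟩ := (P277Z.Val.Lg.freq1 hx).exists
    obtain ⟨y, y1, rfl⟩ := (st.img k).ge z1
    obtain ⟨k', a, b⟩ := f2 _ (fun b => hl (by simp [b])) y y1
    exact one k u (hb _ ((by_contra fun v => z2 k' v b : k' = k) ▸ a))
  · obtain ⟨k, rfl, b⟩ := up l a
    exact ⟨e k, b, (st.img k).le ⟨y, hy, rfl⟩⟩
  · obtain ⟨x, y, a, b, fr⟩ := out.free n
    refine ⟨x, y, a, b, fun M hM eM => Bpf.iso hM (lb_lin S.D.lb _)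
      ((cls_eq hM (lb_lin S.D.lb _)).1 (eM.trans ?_)) fun w => (fr w).imp fun t k =>
        ⟨isSec_of_secN (P277Z.Ex.sec_mono k.1 fun _ _ => rfl), k.2⟩⟩
    rw [cl_add S.D.lb, cl_smul S.D.lb, cl_smul S.D.lb, cl_add S.D.lb, cl_smul S.D.lb, c_cl hπ cl,
      c_dn hπ cl, ← pH]
    rfl
  · refine Eq.trans ?_ eM.symm
    rw [B0.ray, cl_add B.D.lb, cl_smul B.D.lb, cl_smul B.D.lb, eg, ea]
    rfl

/-- **ZXG** -/
theorem zxg : ForI 4 fun _ _ _ A m N φ c L Q => (∀ l, IsConnected (A.G l)) →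
    ∀ H, IsLB 4 H → Pos 4 H → ∃ (D : Dx A) (Ψ : Fin D.V.r → ℕ), (D.R N).Ok m N φ c L Q ∧
      (D.R N).Zd Q H Ψ ∧ (D.R N).Gr ∧ D.Md := by
  intro κ ι _ A m N O σ φ c L Q hI hc H hH hP
  obtain ⟨D, Ψ, a, b, e⟩ := zxg0 κ ι A m N O σ φ c L Q hI hc H hH hP
  exact ⟨D, Ψ, a, b, grz nfz rigz 4 κ ι A m N O σ φ c L Q hI _ H Ψ hH hP a b, e⟩

end Vale.Agent.P285S.Mm.Gp
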