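import Vale.Agent.P270F.Tg.Defs
import Vale.Agent.P270F.Tg.Zxg
import Vale.Agent.P270F.Tg.Kmt
import Vale.Agent.P270F.Mg.All
import Vale.Agent.P285S.Tm.All

/-!
# P270F, block TG: row TMG
-/

open scoped Manifold ContDiff Topology
open Set Filter Function
open Vale.Agent.P272.K Vale.Agent.P285.H281.FD Vale.Agent.P281Z Vale.Agent.P280Z
open Vale.Agent.P277Z.Slc (IsDiv Snc lin snc_lg isLB_can isLB_triv)
open Vale.Agent.P277 (CSp IsNormal)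
open Vale.Agent.P277.HD (pull)
open Vale.Agent.P277Z.Pj (HolTo)
open Vale.Agent.P277Z.Val (Lg Res triv)
open Vale.Agent.P277Z (at_chart)
open Vale.Agent.P285N Vale.Agent.P285W.J Vale.Agent.P285W.Bs
open Vale.Agent.P285S.Mm (Sp)
open Vale.Agent.P285S.Mm.Gp (In Dt)
open Vale.Agent.P285S.Tm
open Vale.Agent.P270G (CREP TOPB CONTR Cw)

noncomputable section

namespace Vale.Agent.P270F.Tg

theorem tout {V : Lg} {ι : Type} {U₀ g₀ Ω₀} {m : Fin V.r → ℤ} {N : ℕ}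
    (cw : Cw (⟨mf V, V.G, U₀, g₀, Ω₀⟩ : Pr 4 _ ι) m N) {X : CSp} {ψ : V.W → X.pt}
    {T₁ : Finset (Fin V.r)} {L L' Λ : Bd X.pt} (hX : IsNormal 4 X) (rs : Res V X ψ T₁)
    (kah : ∃ χ : V.Fm, IsKahler χ) (am : Am (mf V) X ψ L L' Λ) (nn : ∀ l, m l < 0 → l ∈ T₁)
    {Q : Bd V.W} (lQ : IsLB 4 Q) (cP : cls 4 (pull ψ L) = cls 4 Q) : Tout (mf V) Q := by
  have hA := cw.ok
  obtain ⟨c, c0, hc⟩ := cw.tor
  obtain ⟨χ, hχ⟩ := kah
  have : SecondCountableTopology V.W := (mf V).sc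
  obtain ⟨O, σ, hO₁⟩ := (Hyp.of_snc (snc_lg V)).exists_div
  rw [Xc.cls_eq 4 _ ι m N _ O σ hA hO₁] at hc
  have km := kmt hX rs hχ hO₁ hA.pos c0 hc cw.klt fun l h => not_lt.1 fun k => h (nn l k)
  obtain ⟨V₂, θ, m₂, T₂, T₃, Y, g, ψ₂, U, p, μ, t⟩ := tmv V N c _ X ψ T₁ _ km
  have hθ : HolM 4 4 θ := fun y => HolA.of_an t.hom.cont.continuousAt (at_chart _) (at_chart _)
    (t.hom.hol y _ _ (at_chart _) (at_chart _))
  have hμ : HolM 4 4 μ := fun y => HolA.of_hol t.holμ.cont.continuousAt (at_chart _) fun a =>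
    t.holμ.hol y (fun x : U.W => chartAt (Cm 4) (μ y) x a) (P277Z.Val.holF_chart (at_chart _) a)
  have mθ := rmd V₂ V X _ ψ θ T₂ T₁ t.res rs hθ fun _ => rfl
  have mμ := rmd V₂ U Y ψ₂ p μ T₃ _ t.res₂ t.resU hμ t.cμ
  have cV : ConnectedSpace V.W := hA.conn
  have c₂ : ConnectedSpace V₂.W := mθ.conn
  have cU : ConnectedSpace U.W := mμ.connX
  have p₂ := pjr.1 V₂ X _ T₂ Λ t.res am.lbΛ am.amp
  obtain ⟨Λ', l1, l2⟩ := t.amp
  have pU := pjr.2 U Y X p g _ Λ' Λ t.resU t.hol l1 l2 am.lbΛ am.amp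
  have hψ : HolTo 4 X ψ := ⟨rs.cont, rs.hol⟩
  have hq : HolTo 4 X fun y => g (p y) :=
    ⟨(continuous_iff_continuousAt.2 fun y => (t.hol y).1).comp t.resU.cont,
      fun y f hf => t.resU.hol y _ ((t.hol _).2 f hf)⟩
  have cq : ∀ y, g (p (μ y)) = ψ (θ y) := fun y => by rw [t.cμ, t.cg]
  obtain ⟨aU, nU⟩ := amd 4 (mf V) (mf V₂) (mf U) X θ μ ψ _ _ L L' Λ hθ mμ hψ hq cq am
  have : SecondCountableTopology V₂.W := (mf V₂).sc
  obtain ⟨O₂, σ₂, hO⟩ := (Hyp.of_snc (snc_lg V₂)).exists_div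
  have lL := lbp (W := mf V) hψ am.lb
  obtain ⟨s, hs⟩ := t.cmp
  have hK := lb_pow (isLB_can (n := 4) (W := V₂.W)) N
  have hT := lb_mul hK isLB_triv
  have e2 := P285S.Mm.cls_cmp (L := P277Z.Slc.triv V₂.W)
    (N := (Bd.mul _ (P277Z.Slc.triv _)).pow c) (t := s 0) hO isLB_triv (lb_pow hT c)
    (fun y => (hs.div y).imp fun ζ a => ⟨a.1, a.2 0⟩) fun y => hs.change y 0
  rw [cls_pow hT, cls_mul hK isLB_triv, cls_pow isLB_can, cls_triv, add_zero, smul_smul,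
    mul_comm] at e2
  simp only [neg_neg] at e2
  obtain ⟨Ω₂, ok⟩ := P285S.Mm.mkpr 4 _ (mf V₂) V₂.G O₂ σ₂ (P277Z.Slc.triv V₂.W) m₂ (N * c) c₂ p₂
    (snc_lg V₂) hO isLB_triv (mul_pos hA.pos c0) (hA.even.mul_right _)
    (fun l => by exact_mod_cast (t.klt l).le) (cls_triv.trans e2)
  refine ⟨mf U, pull (fun y => g (p y)) L, _, _, inferInstance, _, m₂, N * c, θ, μ, _, _, mθ, mμ,
    pU, lbp (W := mf U) hq am.lb, nU, ⟨ok, fun l => by exact_mod_cast t.klt l, V₂.conn, 1, one_pos,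
      (one_smul _ _).trans cls_triv⟩, ?_, fun T hT l hl =>
    nulu6 rk1 thn amd T hT U Y X p g _ L L' Λ _ ⟨cU, pU⟩ t.resU t.dim t.hol aU (t.res₂.dim.mono ?_)⟩
  · rw [cls_pull hθ lQ, ← cP, ← cls_pull hθ lL]
    exact congrArg (fun f => cls 4 (pull f L)) (funext cq)
  · rintro _ ⟨_, ⟨y, hy, rfl⟩, rfl⟩
    exact ⟨y, mem_iUnion₂.2 ⟨l, t.neg l hl, hy⟩, (t.cμ y).symm⟩

theorem tmg_of (hC : CREP) (hG : P270G.GEN) (hB : TOPB) (hK : CONTR) : TMG := by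
  classical
  intro T hT κ ι _ A m N L Λ Q Φ cw lL nL hn fb lQ rig
  have hA := cw.ok
  obtain ⟨t, t0, ht⟩ := cw.tor
  choose O σ hO using fun l => P277Z.Slc.stDiv 4 A.Z.X (A.G l) fun y =>
    (hA.snc y).elim fun ζ k => ⟨ζ l, k.1 l⟩
  have lO := fun l => (hO l).lb
  obtain ⟨H, C, lH, pH, fp⟩ := hB 4 T hT κ ι A m N _ _ Λ Q hA fb lQ rig fun _ h => h
  obtain ⟨φ, f0, f1⟩ : ∃ φ : κ → ℕ, (∀ l, φ l ≠ 0 ↔ Φ l ≠ 0) ∧
      ∀ l, Φ l ≠ 0 → (φ l : ℤ) = t * (N - m l) :=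
    ⟨fun l => if Φ l ≠ 0 then t * (N - m l).toNat else 0, fun l => by
      have := cw.klt l
      by_cases h : Φ l = 0
      · simp [h]
      · simp only [h, ne_eq, not_false_eq_true, if_true, iff_true]
        exact mul_ne_zero t0.ne' (by omega), fun l h => by
      simp only [if_pos h, Nat.cast_mul, Int.toNat_of_nonneg (sub_pos.2 (cw.klt l)).le]⟩
  obtain ⟨j, j0, hj⟩ := hK 4 T hT κ ι A m N O σ Φ φ H L Q C hA hO lH pH lL fp fun l => (f0 l).1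
  have lP := lb_lin lO fun l => ((j * φ l : ℕ) : ℤ)
  have cP := cls_lin lO fun l => ((j * φ l : ℕ) : ℤ)
  simp only [natCast_zsmul] at cP
  have hm : ∀ l, 0 ≤ (j * t : ℕ) * m l + ((j * φ l : ℕ) : ℤ) ∧
      (j * t : ℕ) * m l + ((j * φ l : ℕ) : ℤ) ≤ (j * t * N : ℕ) := fun l => by
    by_cases h : Φ l = 0
    · have h1 : φ l = 0 := by_contra fun k => (f0 l).1 k h
      have h2 : 0 ≤ m l := not_lt.1 fun k => hn l k h
      rw [h1, mul_zero, Nat.cast_zero, add_zero, Nat.cast_mul (j * t)]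
      exact ⟨by positivity, mul_le_mul_of_nonneg_left (hA.le l) (by positivity)⟩
    · have : (j * t : ℕ) * m l + ((j * φ l : ℕ) : ℤ) = (j * t * N : ℕ) := by
        push_cast
        rw [f1 l h]
        ring
      exact ⟨this ▸ Nat.cast_nonneg _, this.le⟩
  obtain ⟨Ω, h2⟩ := P285S.Mm.mkpr 4 κ A.Z A.G O σ _ _ (j * t * N) hA.conn hA.prj hA.snc hO lP
    (mul_pos (mul_pos j0 t0) hA.pos) (hA.even.mul_left _) (fun l => (hm l).2) (by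
      have e : (j * t) • cls 4 A.P = 0 := by rw [mul_smul, ht, smul_zero]
      rw [Xc.cls_eq 4 κ ι m N A O σ hA hO] at e
      simp only [cP, add_smul, Finset.sum_add_distrib, natCast_zsmul, mul_smul ((j * t : ℕ) : ℤ),
        ← Finset.smul_sum, mul_smul (j * t) N]
      rw [← add_assoc, ← smul_add, e, zero_add])
  have cQ := cls_mul lP lL
  have hI : In ⟨A.Z, A.G, _, _, Ω⟩ _ _ O σ (fun l => j * φ l) 1 L
      ((lin O fun l => ((j * φ l : ℕ) : ℤ)).mul L) :=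
    ⟨h2, fun l => (hm l).1, hO, lL, nL, one_pos, by rw [one_smul, cQ, cP, add_comm],
      lb_mul lP lL, L, lL, nL, cQ⟩
  obtain ⟨D, Ψ, ok, zd, gr, dm⟩ := P285S.Mm.Gp.zxg κ _ _ _ _ _ _ _ 1 _ _ hI cw.conn H lH pH
  have cn := D.V.conn
  set R := D.R (j * t * N)
  have eS : Sp A (fun l => j * φ l) = Sp A Φ :=
    Set.ext fun _ => exists_congr fun l => and_congr_left' (by simp [← f0, j0.ne'])
  have sup : ∀ l, R.Φ l ≠ 0 ∨ R.φ l ≠ 0 → ∀ y ∈ R.B.G l, R.π y ∈ Sp A Φ := fun l h y k =>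
    eS.subset (ok.sup l h y k)
  have key : ∀ y, R.π y ∈ Sp A Φ → y ∈ Sp R.B R.Φ := fun y ⟨l, h, k⟩ => by_contra fun hy => by
    obtain ⟨a, b, M, u, a0, ab, lM, cM, u1, u2⟩ := P270G.Mm2.key ok zd hI.lbQ lH hy
    exact hj a b M u a0 ab lM (by rw [cM, cQ, cP, add_comm (cls 4 L)]) u1 _ ⟨l, (f0 l).2 h, k⟩ u2
  have md : Modif 4 R.π (Sp A Φ) := (congrArg (Modif 4 R.π) eS).mp ok.md
  have ho : ∀ y ∈ off R.B.G, R.π y ∈ off A.G := fun y hy k h =>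
    (ok.pre y k h).elim fun l h' => hy l h'.1
  obtain ⟨m', Ω', cw', ng⟩ := hC 4 T hT κ ι A m N R.B.Z R.π _ R.κ' R.B.G cw md ok.ok.prj ok.ok.snc
    cn fun y hy => ⟨fun ⟨l, _, k⟩ => ho y hy l k, ho y hy⟩
  obtain ⟨Λ', H', l1, l2, l3, l4, l5, l6⟩ := gr.rig
  obtain ⟨H₀, g, -⟩ := gr.gd
  have lO' := fun l => (ok.div l).lb
  have lD := lb_lin lO' fun l => (R.φ l : ℤ)
  have lL' := md.hol.lb lL
  have ng' : ∀ l, m' l < 0 → R.Φ l ≠ 0 := fun l h => by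
    obtain ⟨y, y1, y2⟩ := hG 4 R.B.Z R.κ' R.B.G l ok.ok.snc (cn l).nonempty
    obtain ⟨i, h1, h2⟩ := key y ((ng l h y y1).elim (fun k => by_contra fun k' => k (md.imm k'))
      fun ⟨k, k1, k2⟩ => ⟨k, hn k k1, k2⟩)
    exact (by_contra fun k => y2 i k h2 : i = l) ▸ h1
  refine ⟨⟨R.κ', ι, _, m', N, R.π, R.Φ, Λ', R.Q⟩, ⟨cw', md, ng', fun y => ⟨key y,
    fun ⟨l, h, k⟩ => sup l (.inl h) y k⟩, ⟨l1, l2, H', l3, l4, l5⟩, ok.lbQ,
    P285S.Tp.nf_of g.lbH g.lbL fun i M hM e => g.pos i 0 M hM (by simpa using e), l6⟩, R.δ, _, _,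
    Nat.cast_pos.2 ok.pos, lD, Tp.sec_mon (fun l => (ok.div l).sec) R.φ,
    fun y hy b hb => Tp.mon_ne ok.div R.φ hb fun l h k =>
      hy (key y (sup l (.inr h.ne') y k)), ?_, tout cw' dm.normal dm.res dm.kah dm.am
      (fun l h => P285S.Mm.mem_supp.2 (ng' l h)) ok.lbQ dm.cl⟩
  refine (Ld.Ext.c1_cls Ld.ld.iso hT.c1 ok.lbQ (lb_mul (lb_pow lL' R.δ) lD) ?_).trans ?_
  · rw [cls_mul (lb_pow lL' _) lD, cls_pow lL', cls_lin lO', ← one_smul ℕ (cls 4 R.Q), ok.eff]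
    simp only [natCast_zsmul]
  · exact (hT.c1.mul _ _ _ (lb_pow lL' _) lD).trans (congrArg (· + _)
      ((hT.c1.pow _ _ _ lL').trans (congrArg _ (hT.c1.pull md.hol L lL))))

theorem tmg : TMG := tmg_of P270G.crep P270G.gen P270G.topb P270G.contr

end Vale.Agent.P270F.Tg
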