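import Vale.Agent.P270F.Tg.Bir
import Vale.Agent.P270F.Tg.Tmg
import Vale.Agent.P285S.N4.Kxd

/-!
# P270F, block TG: row BIR
-/

open scoped Manifold ContDiff Topology
open Set Filter Function
open Vale.Agent.P272.K Vale.Agent.P285.H281.FD Vale.Agent.P281Z Vale.Agent.P280Z
open Vale.Agent.P285W Vale.Agent.P285W.J Vale.Agent.P285W.Bs
open Vale.Agent.P285S
open Vale.Agent.P285S.B2 (Zr Nu MV Ba kah_of zr_weak zr_down)

noncomputable section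

namespace Vale.Agent.P270F.Tg

variable {T : CT} (hT : T.OK)

include hT

theorem zr_iff {n k : ℕ} {W Z : Mf (n + 1)} {θ : W.X → Z.X} {S : Set Z.X}
    (hθ : Modif (n + 1) θ S) (cW : Cp W) (cZ : Cp Z) {l : T.H Z} (nl : Nf T W (T.pull hθ.hol l))
    (hk : k ≤ n + 1) : Zr T W (T.pull hθ.hol l ^ k) ↔ Zr T Z (l ^ k) := by
  refine ⟨fun h => zr_down hT hθ.hol cW cZ hθ.surj (by rwa [map_pow]), fun h => ?_⟩
  obtain ⟨c, c1, -⟩ := Ps.fub1 hT cZ.conn (kah_of hT cZ.prj) hθ.hol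
  exact zr_weak hT hθ.hol cW cZ hθ.surj (nl.mn.pow _) (dg_pow hT (nf_dg hT nl) k) hk
    fun y hy => by rw [← map_pow, ← map_mul, c1, h y hy, mul_zero]

theorem tr_dn {n : ℕ} {W U : Mf n} {μ : W.X → U.X} {S : Set U.X} (hμ : Modif n μ S) (pW : W.Prj)
    (pU : U.Prj) {l : T.H U} (h : Neg n (Tr T W (T.pull hμ.hol l))) : Neg n (Tr T U l) := by
  refine ((hμ.img_neg rem h).union hμ.thin.neg).mono ?_
  rintro _ ⟨C, f, hf, hC, ⟨x, rfl⟩, ⟨c, c', hc⟩, h0⟩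
  refine or_iff_not_imp_right.2 fun k => ?_
  have cC : Cp C := ⟨hC, (c1p T hT n C U f hC pU hf ⟨c, c', hc⟩).1⟩
  obtain ⟨M, π, e, cM, hπ, he, cm⟩ := lft hμ pW hf cC ⟨x, k⟩
  obtain ⟨y, rfl⟩ := hπ.surj x
  obtain ⟨a, rfl⟩ := hπ.surj c
  obtain ⟨a', rfl⟩ := hπ.surj c'
  obtain ⟨s, s1, -⟩ := Ps.fub1 hT hC (kah_of hT cC.prj) hπ.hol
  refine ⟨e y, ⟨M, e, he, cM.conn, ⟨y, rfl⟩, ⟨a, a', fun i => hc ?_⟩, ?_⟩, cm y⟩
  · rw [← cm, ← cm, i]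
  · rw [← hT.rg.pull_comp he hμ.hol (hμ.hol.comp he) fun _ => rfl,
      hT.rg.pull_comp hπ.hol hf (hμ.hol.comp he) cm, s1, h0, mul_zero]

omit hT in
theorem bir_of (h : SFC) : BIR := by
  rintro T hT Z Q cZ lQ ⟨U, QU, κ, ι, _, A, m, N, θ, μ, S, S', hθ, hμ, pU, lU, nU, cw, e, nl⟩
    r a r0 - - hν hN hF
  have cW : Cp A.Z := ⟨cw.ok.conn, cw.ok.prj⟩
  have := cW.conn
  have cU : Cp U := ⟨hμ.connX, pU⟩
  obtain ⟨k, H, k0, hb⟩ := N4.scl 4 U QU cU lU nU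
  have k1 : (0 : ℝ) < k := Nat.cast_pos.2 k0
  have eL := hT.c1.pow U QU k lU
  have e0 : T.pull hμ.hol (T.c1 U QU) = T.pull hθ.hol (T.c1 Z Q) := by
    rw [← hT.c1.pull hμ.hol _ lU, ← hT.c1.pull hθ.hol _ lQ]
    exact Ld.Ext.c1_cls Ld.ld.iso hT.c1 (hμ.hol.lb lU) (hθ.hol.lb lQ) e
  have n0 := nf_of hT pU lU nU
  have n1 := nf_pull hT hμ.hol n0
  have z : ∀ j ≤ 4, Zr T U (T.c1 U (QU.pow k) ^ j) ↔ Zr T Z (T.c1 Z Q ^ j) := fun j hj => by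
    rw [← zr_iff hT hθ cW cZ (e0 ▸ n1) hj, ← e0, zr_iff hT hμ cW cU n1 hj, eL]
    exact forall₂_congr fun y _ => by simp [smul_pow, k1.ne']
  have nu : Nu T U (T.c1 U (QU.pow k)) 2 :=
    ⟨mt (z 2 (by omega)).1 hν.1, (z 3 (by omega)).2 hν.2⟩
  have tr : Neg 4 (Tr T U (T.c1 U (QU.pow k))) := by
    rw [eL, ScaleX.tr_smul T _ k1.ne']
    exact tr_dn hT hμ cW.prj pU (e0 ▸ P270G.nuu.tr T hT 4 Z A.Z θ S hθ _ hN)
  refine mv_tr hT hθ hμ cW.prj pU k1.ne' (N4.Ba.nef hT hb) (by rw [eL, map_smul, e0]) (by omega)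
    ((bir hT hθ hμ cW.prj (r := k * r⁻¹) hb ?_ nu le_rfl (by omega) tr hF).elim id
      (h T hT U _ H κ ι A m N μ S' hb nu tr cw hμ fun j hj y hy d V p hp e1 cV hr => ?_))
  · rw [eL, map_smul, map_smul, e0, smul_smul, inv_mul_cancel_right₀ r0.ne']
  · rw [eL, smul_pow, smul_mul_assoc, map_smul, map_smul, nl T hT j hj y hy d V p hp e1 cV hr,
      smul_zero]

omit hT in
/-- **MM2N** from `SFC` -/
theorem mm2n (h : SFC) : MM2N := mm2n_of Mg.mm2 tmg (bir_of h)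

end Vale.Agent.P270F.Tg
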